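import Crest.Agent.N325.Ip.Defs

-- ▼ part N325/Op/Net
section

/-!
# Row 325 (helper19): surgery on the ghost network — operations, divergence, potential
-/

set_option autoImplicit false
open Finset

namespace Crest.Agent.N325.Op

open Crest.Agent.N325.Ip

/-- an operation: id, present now, new arc and flow (or deletion) -/
abbrev Ox := ℕ × Bool × Option (Arc × ℤ)

/-- the network after one operation -/
def app (N : Net) (o : Ox) : Net :=
  Option.casesOn o.2.2 (N.del o.1) fun u => (N.del o.1).ins o.1 u.1 u.2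
/-- the network after a list of operations -/
def apps (N : Net) (l : List Ox) : Net := l.foldl app N

/-- the operation is admissible -/
def Ok (B : Bn) (N : Net) (o : Ox) : Prop :=
  (o.2.1 = true ↔ o.1 ∈ N.E) ∧ ∀ u, o.2.2 = some u → B.arc o.1 u.1 ∧ Dom B u.1 u.2
/-- the operations are admissible, one after the other -/
def Oks (B : Bn) : Net → List Ox → Prop
  | _, [] => True
  | N, o :: l => Ok B N o ∧ Oks B (app N o) l

/-- same arc, flow moved by `d` -/
def mvN (N : Net) (e : ℕ) (d : ℤ) : Net := (N.del e).ins e (N.arc e) (N.X e + d)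

variable {N : Net} {e e' v : ℕ} {A : Arc} {x d : ℤ} {P : Pm} {B : Bn}

@[simp] theorem apps_nil : apps N [] = N := rfl
@[simp] theorem apps_cons (o : Ox) (l : List Ox) : apps N (o :: l) = apps (app N o) l := rfl
theorem apps_append (l l' : List Ox) : apps N (l ++ l') = apps (apps N l) l' := List.foldl_append
@[simp] theorem app_none (b : Bool) : app N (e, b, none) = N.del e := rfl
@[simp] theorem app_some (b : Bool) : app N (e, b, some (A, x)) = (N.del e).ins e A x := rfl
theorem oks_append {l l' : List Ox} : Oks B N (l ++ l') ↔ Oks B N l ∧ Oks B (apps N l) l' := by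
  induction l generalizing N with
  | nil => simp [Oks]
  | cons o l ih => simp [Oks, ih, and_assoc]

@[simp] theorem del_E : (N.del e).E = N.E.erase e := rfl
@[simp] theorem del_arc : (N.del e).arc = N.arc := rfl
@[simp] theorem del_X : (N.del e).X = N.X := rfl
@[simp] theorem ins_E : (N.ins e A x).E = insert e N.E := rfl
@[simp] theorem ins_arc : (N.ins e A x).arc = Function.update N.arc e A := rfl
@[simp] theorem ins_X : (N.ins e A x).X = Function.update N.X e x := rfl
@[simp] theorem add_E (c : ℕ → ℤ) : (N.add c).E = N.E := rfl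
@[simp] theorem add_arc (c : ℕ → ℤ) : (N.add c).arc = N.arc := rfl
@[simp] theorem add_X (c : ℕ → ℤ) : (N.add c).X e = N.X e + c e := rfl
theorem del_of_notMem (h : e ∉ N.E) : N.del e = N := by
  cases N; simp only [Net.del, erase_eq_of_notMem h]
theorem mvN_E (h : e ∈ N.E) : (mvN N e d).E = N.E := insert_erase h
@[simp] theorem mvN_arc : (mvN N e d).arc = N.arc := Function.update_eq_self ..
@[simp] theorem mvN_X : (mvN N e d).X = Function.update N.X e (N.X e + d) := rfl

theorem mem_app {o : Ox} : e ∈ (app N o).E ↔ (e ≠ o.1 ∧ e ∈ N.E) ∨ (e = o.1 ∧ o.2.2 ≠ none) := by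
  obtain ⟨i, b, _ | ⟨A, x⟩⟩ := o <;> simp [or_comm]
theorem app_ne {o : Ox} (h : e ≠ o.1) : (e ∈ (app N o).E ↔ e ∈ N.E) ∧
    (app N o).arc e = N.arc e ∧ (app N o).X e = N.X e := by
  obtain ⟨i, b, _ | ⟨A, x⟩⟩ := o <;> simp_all
/-- ids that are not touched -/
theorem apps_ne {l : List Ox} (h : e ∉ l.map Prod.fst) : (e ∈ (apps N l).E ↔ e ∈ N.E) ∧
    (apps N l).arc e = N.arc e ∧ (apps N l).X e = N.X e := by
  induction l generalizing N with
  | nil => simp
  | cons o l ih =>
    simp only [List.map_cons, List.mem_cons, not_or] at h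
    obtain ⟨a, b, c⟩ := ih (N := app N o) h.2
    obtain ⟨a', b', c'⟩ := app_ne (N := N) h.1
    exact ⟨a.trans a', b.trans b', c.trans c'⟩
/-- the effect of an operation of a list with distinct ids -/
theorem apps_mem {l : List Ox} (h : (l.map Prod.fst).Nodup) {o : Ox} (ho : o ∈ l) :
    (o.1 ∈ (apps N l).E ↔ o.2.2 ≠ none) ∧
      ∀ u, o.2.2 = some u → (apps N l).arc o.1 = u.1 ∧ (apps N l).X o.1 = u.2 := by
  induction l generalizing N with
  | nil => cases ho
  | cons p l ih =>
    simp only [List.map_cons, List.nodup_cons] at h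
    rcases List.mem_cons.1 ho with rfl | k
    · obtain ⟨a, b, c⟩ := apps_ne (N := app N o) h.1
      rw [apps_cons, a, b, c]
      obtain ⟨i, t, _ | ⟨A, x⟩⟩ := o <;> simp
    · exact ih h.2 k
/-- admissibility of a list with distinct ids -/
theorem oks_of_nodup {l : List Ox} (h : (l.map Prod.fst).Nodup) (k : ∀ o ∈ l, Ok B N o) :
    Oks B N l := by
  induction l generalizing N with
  | nil => trivial
  | cons p l ih =>
    simp only [List.map_cons, List.nodup_cons] at h
    refine ⟨k p List.mem_cons_self, ih h.2 fun o ho => ?_⟩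
    have ne : o.1 ≠ p.1 := fun c => h.1 (c ▸ List.mem_map_of_mem ho)
    have := k o (List.mem_cons_of_mem _ ho)
    exact ⟨this.1.trans (app_ne ne).1.symm, this.2⟩

/-! ## sums over the arcs -/

section sums
variable {M : Type} [AddCommGroup M] (f : Arc → ℤ → M)

/-- the sum of `f` over the arcs -/
def tot (N : Net) : M := ∑ e ∈ N.E, f (N.arc e) (N.X e)
/-- the old value -/
def old (N : Net) (e : ℕ) : M := if e ∈ N.E then f (N.arc e) (N.X e) else 0
/-- the new value -/
def nw (o : Ox) : M := Option.casesOn o.2.2 0 fun u => f u.1 u.2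

@[simp] theorem nw_none (b : Bool) : nw f (e, b, none) = 0 := rfl
@[simp] theorem nw_some (b : Bool) : nw f (e, b, some (A, x)) = f A x := rfl
theorem old_mem (h : e ∈ N.E) : old f N e = f (N.arc e) (N.X e) := if_pos h
theorem old_notMem (h : e ∉ N.E) : old f N e = 0 := if_neg h

theorem tot_ins (h : e ∉ N.E) : tot f (N.ins e A x) = tot f N + f A x := by
  simp only [tot, ins_E, ins_arc, ins_X, sum_insert h, Function.update_self]
  rw [add_comm]
  congr 1
  exact sum_congr rfl fun i hi => by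
    have : i ≠ e := fun c => h (c ▸ hi)
    rw [Function.update_of_ne this, Function.update_of_ne this]
theorem tot_del (N : Net) (e : ℕ) : tot f (N.del e) = tot f N - old f N e := by
  by_cases h : e ∈ N.E
  · rw [old_mem f h, eq_sub_iff_add_eq]; exact sum_erase_add _ _ h
  · rw [old_notMem f h, del_of_notMem h, sub_zero]
theorem tot_app (N : Net) (o : Ox) : tot f (app N o) = tot f N - old f N o.1 + nw f o := by
  obtain ⟨i, b, _ | ⟨A, x⟩⟩ := o
  · simp [tot_del]
  · rw [app_some, tot_ins f (by simp), tot_del]; rfl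
theorem tot_mvN (h : e ∈ N.E) : tot f (mvN N e d) =
    tot f N - f (N.arc e) (N.X e) + f (N.arc e) (N.X e + d) := by
  rw [mvN, tot_ins f (by simp), tot_del, old_mem f h]
theorem tot_apps {l : List Ox} (h : (l.map Prod.fst).Nodup) (N : Net) :
    tot f (apps N l) = tot f N + (l.map fun o => nw f o - old f N o.1).sum := by
  induction l generalizing N with
  | nil => simp
  | cons p l ih =>
    simp only [List.map_cons, List.nodup_cons] at h
    rw [apps_cons, ih h.2, tot_app, List.map_cons, List.sum_cons]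
    have : (l.map fun o => nw f o - old f (app N p) o.1) = l.map fun o => nw f o - old f N o.1 :=
      List.map_congr_left fun o ho => by
        have ne : o.1 ≠ p.1 := fun c => h.1 (c ▸ List.mem_map_of_mem ho)
        obtain ⟨a, b, c⟩ := app_ne (N := N) ne
        simp only [old, a, b, c]
    rw [this]; abel
end sums

theorem pot_eq (N : Net) : pot P B N = tot (bar P B) N := rfl
theorem pot_ins (h : e ∉ N.E) : pot P B (N.ins e A x) = pot P B N + bar P B A x := tot_ins _ h
theorem pot_del (h : e ∈ N.E) : pot P B (N.del e) = pot P B N - bar P B (N.arc e) (N.X e) := by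
  rw [pot_eq, tot_del, old_mem _ h, pot_eq]
theorem pot_app (o : Ox) : pot P B (app N o) =
    pot P B N - old (bar P B) N o.1 + nw (bar P B) o := tot_app _ N o
theorem pot_mvN (h : e ∈ N.E) : pot P B (mvN N e d) =
    pot P B N - bar P B (N.arc e) (N.X e) + bar P B (N.arc e) (N.X e + d) := tot_mvN _ h
theorem pot_apps {l : List Ox} (h : (l.map Prod.fst).Nodup) : pot P B (apps N l) =
    pot P B N + (l.map fun o => nw (bar P B) o - old (bar P B) N o.1).sum := tot_apps _ h N

/-! ## divergence -/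

/-- contribution of an arc to the divergence at `v` -/
def ct (v : ℕ) (A : Arc) (x : ℤ) : ℤ := (if A.b = v then x else 0) - if A.a = v then x else 0
/-- inflow minus outflow -/
def dv (N : Net) (v : ℕ) : ℤ := tot (ct v) N
/-- inflow -/
def inf (N : Net) (v : ℕ) : ℤ := ∑ e ∈ N.E with (N.arc e).b = v, N.X e
/-- outflow -/
def ouf (N : Net) (v : ℕ) : ℤ := ∑ e ∈ N.E with (N.arc e).a = v, N.X e
/-- conservation away from the ground -/
def Cons (N : Net) : Prop := ∀ v, v ≠ 0 → dv N v = 0

theorem dv_eq (N : Net) (v : ℕ) : dv N v = inf N v - ouf N v := by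
  simp only [dv, tot, ct, inf, ouf, sum_filter, sum_sub_distrib]
theorem dv_ins (h : e ∉ N.E) : dv (N.ins e A x) v = dv N v + ct v A x := tot_ins _ h
theorem dv_del (h : e ∈ N.E) : dv (N.del e) v = dv N v - ct v (N.arc e) (N.X e) := by
  rw [dv, tot_del, old_mem _ h, dv]
theorem dv_app (o : Ox) : dv (app N o) v = dv N v - old (ct v) N o.1 + nw (ct v) o :=
  tot_app _ N o
theorem ct_add (x d : ℤ) : ct v A (x + d) = ct v A x + ct v A d := by
  unfold ct; split_ifs <;> ring
theorem dv_mvN (h : e ∈ N.E) : dv (mvN N e d) v = dv N v + ct v (N.arc e) d := by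
  rw [dv, tot_mvN _ h, ct_add, dv]; ring
theorem dv_apps {l : List Ox} (h : (l.map Prod.fst).Nodup) : dv (apps N l) v =
    dv N v + (l.map fun o => nw (ct v) o - old (ct v) N o.1).sum := tot_apps _ h N

theorem ct_eq (x : ℤ) : ct v A x =
    x * ((if A.b = v then 1 else 0) - if A.a = v then 1 else 0) := by
  unfold ct; split_ifs <;> ring
theorem dv_add {c : ℕ → ℤ} (h : N.Circ c) (v : ℕ) : dv (N.add c) v = dv N v := by
  have := h fun u => if u = v then 1 else 0
  simp only [dv, tot, add_E, add_arc, add_X, ct_add, sum_add_distrib]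
  rw [add_eq_left, ← this]
  exact sum_congr rfl fun i _ => ct_eq _
theorem Cons.add {c : ℕ → ℤ} (h : Cons N) (k : N.Circ c) : Cons (N.add c) :=
  fun v hv => (dv_add k v).trans (h v hv)

/-- summation by parts -/
theorem sum_dv {K : Type} [CommRing K] (N : Net) (z : ℕ → K) {V : Finset ℕ}
    (hV : ∀ e ∈ N.E, (N.arc e).a ∈ V ∧ (N.arc e).b ∈ V) :
    ∑ e ∈ N.E, (N.X e : K) * (z (N.arc e).b - z (N.arc e).a) = ∑ v ∈ V, z v * (dv N v : K) := by
  simp only [dv, tot, Int.cast_sum, mul_sum]
  rw [sum_comm]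
  refine sum_congr rfl fun e he => ?_
  simp only [ct, Int.cast_sub, Int.cast_ite, Int.cast_zero, mul_sub, mul_ite, mul_zero,
    sum_sub_distrib, sum_ite_eq, (hV e he).1, (hV e he).2, if_true]
  ring
/-- a conserved flow pairs to zero with every potential -/
theorem Cons.pair {K : Type} [CommRing K] (h : Cons N) (z : ℕ → K) :
    ∑ e ∈ N.E, (N.X e : K) * (z (N.arc e).b - z (N.arc e).a) = 0 := by
  have hV : ∀ e ∈ N.E, (N.arc e).a ∈ N.E.image (fun e => (N.arc e).a) ∪
      N.E.image (fun e => (N.arc e).b) ∧ (N.arc e).b ∈ N.E.image (fun e => (N.arc e).a) ∪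
      N.E.image (fun e => (N.arc e).b) := fun e he =>
    ⟨mem_union_left _ (mem_image_of_mem _ he), mem_union_right _ (mem_image_of_mem _ he)⟩
  have := sum_dv N (fun v => z v - z 0) hV
  simp only [sub_sub_sub_cancel_right] at this
  rw [this]
  refine sum_eq_zero fun v _ => ?_
  by_cases k : v = 0
  · simp [k]
  · simp [h v k]
theorem Cons.circ (h : Cons N) : N.Circ N.X := fun z => by simpa using h.pair z
theorem cons_of_circ (h : N.Circ N.X) : Cons N := fun v _ => by
  rw [← h fun u => if u = v then 1 else 0]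
  exact sum_congr rfl fun i _ => ct_eq _
theorem cons_emp : Cons Net.emp := fun _ _ => rfl
/-- the flow into a set of vertices equals the flow out of it -/
theorem Cons.cut (h : Cons N) (S : Finset ℕ) :
    ∑ e ∈ N.E with (N.arc e).b ∈ S ∧ (N.arc e).a ∉ S, N.X e =
      ∑ e ∈ N.E with (N.arc e).a ∈ S ∧ (N.arc e).b ∉ S, N.X e := by
  have := h.pair (K := ℤ) fun u => if u ∈ S then 1 else 0
  rw [sum_filter, sum_filter, ← sub_eq_zero, ← sum_sub_distrib]
  refine Eq.trans (sum_congr rfl fun e _ => ?_) this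
  by_cases a : (N.arc e).a ∈ S <;> by_cases b : (N.arc e).b ∈ S <;> simp [a, b]

end Crest.Agent.N325.Op
private theorem rz_b206685ebd : type_of% @_root_.Crest.Agent.N325.Op.Oks.eq_def := @_root_.Crest.Agent.N325.Op.Oks.eq_def -- L27
private theorem rz_4720d89097 : type_of% @_root_.Crest.Agent.N325.Op.Oks.eq_1 := @_root_.Crest.Agent.N325.Op.Oks.eq_1 -- L27
end

-- ▼ part N325/Op/Prog

/-!
# Row 325 (helper19): surgery programs on the interior point layer and their specifications
-/

set_option autoImplicit false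
open Finset

namespace Crest.Agent.N325.Op

open Crest.Agent.N325.Ip Crest.Agent.N325.Tw

section prog
variable {T : Type} (run : Cmd × T → R (T × Rep × Bool)) (P : Pm)

/-- the deletion half of an operation -/
def opD (o : Ox) (s : St T) : R (St T) :=
  if o.2.1 = true then do
    let u ← del run P s o.1
    pure u.1
  else pure s
/-- one operation -/
def op1 (o : Ox) (s : St T) : R (St T) := do
  let s' ← opD run P o s
  Option.casesOn o.2.2 (pure s') fun u => ins run P s' o.1 u.1 u.2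
/-- a list of operations -/
def ops (l : List Ox) (s : St T) : R (St T) := foldL (op1 run P) l s
/-- move the flow of `p.1` by `p.2` -/
def mv (p : ℕ × ℤ) (s : St T) : R (St T) := do
  let u ← del run P s p.1
  let v ← int (u.2 + p.2)
  ins run P u.1 p.1 (s.arc.get p.1) v
/-- a list of moves -/
def mvs (l : List (ℕ × ℤ)) (s : St T) : R (St T) := foldL (mv run P) l s
/-- one exact value, stored in an array -/
def get1 (e : ℕ) (u : St T × Arr ℤ) : R (St T × Arr ℤ) := do
  let r ← get run P u.1 e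
  pure (r.1, u.2.set e r.2)
/-- exact values of a list of arcs -/
def gets (l : List ℕ) (u : St T × Arr ℤ) : R (St T × Arr ℤ) := foldL (get1 run P) l u
end prog

/-- bookkeeping of a surgery from `(s, N)` to `(s', N')` of time `t`, amortised time `A` -/
structure Up {T : Type} (k : IC) (Φ : St T → ℝ) (s s' : St T) (N N' : Net) (new : List ℕ) (t : ℕ)
    (A : ℝ) : Prop where
  log : s'.log = new ++ s.log
  rf : ∀ e, e ∉ new → s'.rf.get e = s.rf.get e
  chg : ∀ e ∈ N'.E, e ∉ new → e ∈ N.E ∧ N'.arc e = N.arc e ∧ N'.X e = N.X e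
  fresh : ∀ e ∈ new, e ∈ N'.E → s'.rf.get e = N'.X e
  time : (t : ℝ) + Φ s' + k.cl * new.length ≤ Φ s + A

variable {T : Type} {g : Gl} {run : Cmd × T → R (T × Rep × Bool)} {P : Pm} {B : Bn} {k : IC}
  {Sh : T → Prop} {I : St T → Net → Prop} {Φ : St T → ℝ} {s s' s'' : St T} {N N' N'' : Net}
  {n n' : List ℕ} {t t' : ℕ} {A A' : ℝ}

theorem Up.refl : Up k Φ s s N N [] 0 0 :=
  ⟨rfl, fun _ _ => rfl, fun _ h _ => ⟨h, rfl, rfl⟩, fun _ h => (nomatch h), by simp⟩
theorem Up.mono (h : Up k Φ s s' N N' n t A) (a : (t' : ℝ) + A ≤ t + A') :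
    Up k Φ s s' N N' n t' A' := ⟨h.log, h.rf, h.chg, h.fresh, by linarith [h.time]⟩
theorem Up.trans (h : Up k Φ s s' N N' n t A) (h' : Up k Φ s' s'' N' N'' n' t' A') :
    Up k Φ s s'' N N'' (n' ++ n) (t + t') (A + A') := by
  refine ⟨by rw [h'.log, h.log, List.append_assoc], fun e c => ?_, fun e he c => ?_,
    fun e c he => ?_, ?_⟩
  · rw [List.mem_append, not_or] at c; rw [h'.rf e c.1, h.rf e c.2]
  · rw [List.mem_append, not_or] at c
    obtain ⟨a, b, d⟩ := h'.chg e he c.1
    obtain ⟨a', b', d'⟩ := h.chg e a c.2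
    exact ⟨a', b.trans b', d.trans d'⟩
  · by_cases c' : e ∈ n'
    · exact h'.fresh e c' he
    · obtain ⟨a, -, d⟩ := h'.chg e he c'
      rw [h'.rf e c', d]
      exact h.fresh e ((List.mem_append.1 c).resolve_left c') a
  · have := h.time; have := h'.time
    rw [List.length_append]; push_cast; linarith
theorem Up.phi (h : Up k Φ s s' N N' n t A) : Φ s' ≤ Φ s + A := by
  have := h.time
  have : (0 : ℝ) ≤ k.cl * n.length := by positivity
  have : (0 : ℝ) ≤ t := by positivity
  linarith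

section spec
variable (S : IpSpec g run P B k Sh I Φ)
include S

theorem sp_ins (h : I s N) (hF : Φ s ≤ B.F) {e : ℕ} {A : Arc} {x : ℤ} (he : e ∉ N.E)
    (hA : B.arc e A) (hx : Dom B A x) : Sp g (ins run P s e A x) fun s' t =>
      I s' (N.ins e A x) ∧ ∃ n, e ∈ n ∧ Up k Φ s s' N (N.ins e A x) n t k.AU :=
  (S.ins e A x h hF he hA hx).mono fun s' t ⟨a, n, b, c, d⟩ => ⟨a, n, b, d.1, d.2.2.1,
    fun i hi ni => by
      have ne : i ≠ e := fun q => ni (q ▸ b)
      exact ⟨(mem_insert.1 hi).resolve_left ne, Function.update_of_ne ne .., 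
        Function.update_of_ne ne ..⟩, fun i hi _ => c i hi, d.2.2.2⟩

theorem sp_del (h : I s N) (hF : Φ s ≤ B.F) {e : ℕ} (he : e ∈ N.E) :
    Sp g (del run P s e) fun r t =>
      I r.1 (N.del e) ∧ r.2 = N.X e ∧ ∃ n, Up k Φ s r.1 N (N.del e) n t k.AU :=
  (S.del e h hF he).mono fun _ _ ⟨a, b, n, c, d⟩ => ⟨a, b, n, d.1, d.2.2.1,
    fun _ hi _ => ⟨mem_of_mem_erase hi, rfl, rfl⟩, fun i hi _ => c i hi, d.2.2.2⟩

theorem sp_get (h : I s N) (hF : Φ s + k.AU ≤ B.F) {e : ℕ} (he : e ∈ N.E) :
    Sp g (get run P s e) fun r t =>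
      I r.1 N ∧ r.2 = N.X e ∧ ∃ n, e ∈ n ∧ Up k Φ s r.1 N N n t (2 * k.AU) :=
  (S.get e h hF he).mono fun _ _ ⟨a, b, n, m, c, d⟩ => ⟨a, b, n, m, d.1, d.2.2.1,
    fun _ hi _ => ⟨hi, rfl, rfl⟩, fun i hi _ => c i hi, d.2.2.2⟩

theorem sp_op1 (h : I s N) (hF : Φ s + k.AU ≤ B.F) {o : Ox} (ho : Ok B N o) :
    Sp g (op1 run P o s) fun s' t =>
      I s' (app N o) ∧ ∃ n, Up k Φ s s' N (app N o) n t (2 * k.AU) := by
  have h0 : (0 : ℝ) ≤ k.AU := by positivity
  have hD : Sp g (opD run P o s) fun s' t =>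
      I s' (N.del o.1) ∧ ∃ n, Up k Φ s s' N (N.del o.1) n t k.AU := by
    unfold opD
    split_ifs with c
    · exact (sp_del S h (by linarith) (ho.1.1 c)).bind fun u t ⟨a, _, n, b⟩ => ⟨a, n, b⟩
    · rw [del_of_notMem fun q => c (ho.1.2 q)]
      exact ⟨h, [], Up.refl.mono (by simp)⟩
  refine hD.bind fun s1 t ⟨a, n, b⟩ => ?_
  obtain ⟨e, p, _ | ⟨A, x⟩⟩ := o
  · exact ⟨a, n, b.mono (by simp; linarith)⟩
  · obtain ⟨c, d⟩ := ho.2 _ rfl
    exact (sp_ins S a (by linarith [b.phi]) (by simp) c d).mono fun s2 t' ⟨a', n', _, b'⟩ =>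
      ⟨a', _, (b.trans b').mono (by linarith)⟩

/-- **a list of operations** -/
theorem sp_ops (h : I s N) {l : List Ox} (hF : Φ s + 2 * k.AU * l.length ≤ B.F)
    (ho : Oks B N l) : Sp g (ops run P l s) fun s' t =>
      I s' (apps N l) ∧ ∃ n, Up k Φ s s' N (apps N l) n t ((2 * k.AU + 1) * l.length + 1) := by
  have h0 : (0 : ℝ) ≤ k.AU := by positivity
  refine (sp_foldL (fun l' s' t => ∃ N', I s' N' ∧ Oks B N' l' ∧ apps N' l' = apps N l ∧
      l'.length ≤ l.length ∧ Φ s' + 2 * k.AU * l'.length ≤ B.F ∧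
      ∃ n, Up k Φ s s' N N' n t ((2 * k.AU + 1) * (l.length - l'.length)))
    (fun o l' s1 t ⟨N', a, b, c, d, f, n, u⟩ => ?_) (t := 0)
    ⟨N, h, ho, rfl, le_rfl, hF, [], Up.refl.mono (by simp)⟩).mono ?_
  · simp only [List.length_cons, Nat.cast_add, Nat.cast_one] at d f u
    have : (0 : ℝ) ≤ k.AU * l'.length := by positivity
    refine (sp_op1 S a (by linarith) b.1).mono fun s2 t' ⟨a', n', u'⟩ =>
      ⟨_, a', b.2, c, by omega, by linarith [u'.phi], _, (u.trans u').mono ?_⟩
    push_cast; linarith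
  · rintro s1 _ ⟨t, rfl, N', a, -, c, -, -, n, u⟩
    rw [apps_nil] at c; subst c
    exact ⟨a, n, u.mono (by simp; linarith)⟩

theorem sp_mv (hX : B.Mu ≤ g.X) (h : I s N) (hF : Φ s + k.AU ≤ B.F) {p : ℕ × ℤ} (he : p.1 ∈ N.E)
    (hd : Dom B (N.arc p.1) (N.X p.1 + p.2)) : Sp g (mv run P p s) fun s' t =>
      I s' (mvN N p.1 p.2) ∧ ∃ n, p.1 ∈ n ∧ Up k Φ s s' N (mvN N p.1 p.2) n t (2 * k.AU) := by
  have h0 : (0 : ℝ) ≤ k.AU := by positivity
  obtain ⟨ea, hA, -⟩ := S.view h _ he
  refine (sp_del S h (by linarith) he).bind fun u t ⟨a, b, n, c⟩ => ?_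
  rw [sp_bind, sp_int, b, ea]
  refine ⟨?_, (sp_ins S a (by linarith [c.phi]) (by simp) hA hd).mono
    fun s2 t' ⟨a', n', m, b'⟩ => ⟨a', _, List.mem_append_left _ m, (c.trans b').mono ?_⟩⟩
  · obtain ⟨-, -, -, -, -, -, -, q1, q2⟩ := hA
    obtain ⟨q3, q4⟩ := hd
    omega
  · push_cast; linarith

/-- the network after a list of moves -/
def mvsN (N : Net) (l : List (ℕ × ℤ)) : Net := l.foldl (fun N p => mvN N p.1 p.2) N
/-- admissible moves -/
def MOks (B : Bn) : Net → List (ℕ × ℤ) → Prop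
  | _, [] => True
  | N, p :: l => p.1 ∈ N.E ∧ Dom B (N.arc p.1) (N.X p.1 + p.2) ∧ MOks B (mvN N p.1 p.2) l

theorem sp_mvs (hX : B.Mu ≤ g.X) (h : I s N) {l : List (ℕ × ℤ)}
    (hF : Φ s + 2 * k.AU * l.length ≤ B.F) (ho : MOks B N l) : Sp g (mvs run P l s) fun s' t =>
      I s' (mvsN N l) ∧ ∃ n, Up k Φ s s' N (mvsN N l) n t ((2 * k.AU + 1) * l.length + 1) := by
  have h0 : (0 : ℝ) ≤ k.AU := by positivity
  refine (sp_foldL (fun l' s' t => ∃ N', I s' N' ∧ MOks B N' l' ∧ mvsN N' l' = mvsN N l ∧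
      l'.length ≤ l.length ∧ Φ s' + 2 * k.AU * l'.length ≤ B.F ∧
      ∃ n, Up k Φ s s' N N' n t ((2 * k.AU + 1) * (l.length - l'.length)))
    (fun o l' s1 t ⟨N', a, b, c, d, f, n, u⟩ => ?_) (t := 0)
    ⟨N, h, ho, rfl, le_rfl, hF, [], Up.refl.mono (by simp)⟩).mono ?_
  · simp only [List.length_cons, Nat.cast_add, Nat.cast_one] at d f u
    have : (0 : ℝ) ≤ k.AU * l'.length := by positivity
    refine (sp_mv S hX a (by linarith) b.1 b.2.1).mono fun s2 t' ⟨a', n', _, u'⟩ =>
      ⟨_, a', b.2.2, c, by omega, by linarith [u'.phi], _, (u.trans u').mono ?_⟩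
    push_cast; linarith
  · rintro s1 _ ⟨t, rfl, N', a, -, c, -, -, n, u⟩
    change N' = _ at c; subst c
    exact ⟨a, n, u.mono (by simp; linarith)⟩

/-- **exact values** -/
theorem sp_gets (h : I s N) {l : List ℕ} (a0 : Arr ℤ) (hF : Φ s + 2 * k.AU * l.length ≤ B.F)
    (hl : ∀ e ∈ l, e ∈ N.E) : Sp g (gets run P l (s, a0)) fun r t =>
      I r.1 N ∧ (∀ e, r.2.get e = if e ∈ l then N.X e else a0.get e) ∧
      ∃ n, (∀ e ∈ l, e ∈ n) ∧ Up k Φ s r.1 N N n t ((2 * k.AU + 1) * l.length + 1) := by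
  have h0 : (0 : ℝ) ≤ k.AU := by positivity
  refine (sp_foldL (fun l' u t => ∃ l0, l = l0 ++ l' ∧ I u.1 N ∧
      (∀ e, u.2.get e = if e ∈ l0 then N.X e else a0.get e) ∧
      ∃ n, (∀ e ∈ l0, e ∈ n) ∧ Up k Φ s u.1 N N n t ((2 * k.AU + 1) * l0.length) ∧
        Φ u.1 ≤ Φ s + 2 * k.AU * l0.length)
    (fun e l' u t ⟨l0, q, a, b, n, m, c, f⟩ => ?x) (t := 0)
    ⟨[], rfl, h, by simp, [], by simp, Up.refl.mono (by simp), by simp⟩).mono ?y
  case x =>
    have hq : (l.length : ℝ) = l0.length + (l'.length + 1) := by rw [q]; simp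
    have : (0 : ℝ) ≤ k.AU * l'.length := by positivity
    refine (sp_get S a (by rw [hq] at hF; linarith) (hl e (by simp [q]))).bind
      fun r t' ⟨a', b', n', m', c'⟩ => ⟨l0 ++ [e], by simp [q], a', fun i => ?_, _, fun i hi => ?_,
        (c.trans c').mono ?_, ?_⟩
    · simp only [Arr.get_set, b, b', List.mem_append, List.mem_singleton]
      by_cases z : i = e <;> simp [z]
    · rcases List.mem_append.1 hi with z | z
      · exact List.mem_append_right _ (m i z)
      · exact List.mem_append_left _ (List.mem_singleton.1 z ▸ m')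
    · simp; linarith
    · have := c'.phi; simp; linarith
  case y =>
    rintro r _ ⟨t, rfl, l0, q, a, b, n, m, c, -⟩
    rw [List.append_nil] at q; subst q
    exact ⟨a, b, n, m, c.mono (by simp; linarith)⟩

end spec

theorem mvsN_E {l : List (ℕ × ℤ)} (h : ∀ p ∈ l, p.1 ∈ N.E) : (mvsN N l).E = N.E := by
  induction l generalizing N with
  | nil => rfl
  | cons p l ih =>
    have e := mvN_E (d := p.2) (h p List.mem_cons_self)
    exact (ih fun q c => e ▸ h q (List.mem_cons_of_mem _ c)).trans e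
@[simp] theorem mvsN_arc {l : List (ℕ × ℤ)} : (mvsN N l).arc = N.arc := by
  induction l generalizing N with
  | nil => rfl
  | cons p l ih => exact ih.trans mvN_arc
theorem mvsN_X {l : List (ℕ × ℤ)} (e : ℕ) :
    (mvsN N l).X e = N.X e + (l.map fun p => if p.1 = e then p.2 else 0).sum := by
  induction l generalizing N with
  | nil => simp [mvsN]
  | cons p l ih =>
    refine (ih (N := mvN N p.1 p.2)).trans ?_
    rw [mvN_X, List.map_cons, List.sum_cons, Function.update_apply]
    by_cases c : p.1 = e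
    · simp [c, add_assoc]
    · simp [c, Ne.symm c]
theorem dv_mvsN {l : List (ℕ × ℤ)} (h : ∀ p ∈ l, p.1 ∈ N.E) (v : ℕ) :
    dv (mvsN N l) v = dv N v + (l.map fun p => ct v (N.arc p.1) p.2).sum := by
  induction l generalizing N with
  | nil => simp [mvsN]
  | cons p l ih =>
    have e := mvN_E (d := p.2) (h p List.mem_cons_self)
    refine (ih (N := mvN N p.1 p.2) fun q c => e ▸ h q (List.mem_cons_of_mem _ c)).trans ?_
    rw [dv_mvN (h p List.mem_cons_self), mvN_arc, List.map_cons, List.sum_cons, add_assoc]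

end Crest.Agent.N325.Op
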